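import Vale.Agent.P054.ST.Region

/-!
The trapezoids of a finite set of lines: quadratically many, at most one through each point, and
one through each point off the lines.
-/

namespace Vale.Agent.P054.ST

open Finset Filter Topology

variable {τ τ' : Trap} {S : Finset (ℝ × ℝ)}

theorem no_touch (h : App τ S) {a c : ℝ × ℝ} {x : ℝ} (hab : τ.1.1 = some a ∨ τ.1.2 = some a)
    (hc : c ∈ S) (hx : InI τ x) (he : lval a x = lval c x) : a = c := by
  by_contra hne
  exact no_event h hab hc hne hx he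

theorem same_trap (h : App τ S) (h' : App τ' S) {x y : ℝ} (hx : InI τ x) (hx' : InI τ' x)
    (hy : Btw τ x y) (hy' : Btw τ' x y) : τ = τ' :=
  ends_eq h h' (side_eq h h' hx hx' hy hy'
    (fun _ a' ha ha' he => no_touch h (Or.inl ha) (h'.1.2.1 a' ha') hx he)
    fun _ a' ha ha' he => no_touch h (Or.inr ha) (h'.1.2.2.1 a' ha') hx he) hx hx'

theorem unique_through (h : App τ S) (h' : App τ' S) {p : ℝ × ℝ} (hp : InT τ p) (hp' : InT τ' p) :
    τ = τ' := by
  have ev : ∀ {σ : Trap}, InT σ p → ∀ᶠ x in 𝓝[>] p.1, InI σ x ∧ Btw σ x p.2 := by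
    intro σ hσ
    have h1 : ∀ᶠ x in 𝓝[>] p.1, ∀ l, σ.2.1 = some l → l < x := by
      filter_upwards [self_mem_nhdsWithin] with x hx l hl
      exact (hσ.1.1 l hl).trans_lt hx
    have h2 : ∀ᶠ x in 𝓝[>] p.1, ∀ k, σ.2.2 = some k → x < k := by
      rcases hk : σ.2.2 with _ | k
      · exact Filter.Eventually.of_forall fun x k hk' => by simp at hk'
      · filter_upwards [nhdsWithin_le_nhds (eventually_lt_nhds (hσ.1.2 k hk))] with x hx k' hk'
        cases hk'; exact hx
    have h3 : ∀ᶠ x in 𝓝[>] p.1, ∀ a, σ.1.1 = some a → p.2 < lval a x := by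
      rcases ha : σ.1.1 with _ | a
      · exact Filter.Eventually.of_forall fun x k hk' => by simp at hk'
      · filter_upwards [nhdsWithin_le_nhds ((continuous_lval a).continuousAt.eventually_const_lt
          (hσ.2.1 a ha))] with x hx k' hk'
        cases hk'; exact hx
    have h4 : ∀ᶠ x in 𝓝[>] p.1, ∀ a, σ.1.2 = some a → lval a x < p.2 := by
      rcases ha : σ.1.2 with _ | a
      · exact Filter.Eventually.of_forall fun x k hk' => by simp at hk'
      · filter_upwards [nhdsWithin_le_nhds ((continuous_lval a).continuousAt.eventually_lt_const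
          (hσ.2.2 a ha))] with x hx k' hk'
        cases hk'; exact hx
    filter_upwards [h1, h2, h3, h4] with x a b c d using ⟨⟨a, b⟩, c, d⟩
  obtain ⟨x, ⟨a, b⟩, c, d⟩ := ((ev hp).and (ev hp')).exists
  exact same_trap h h' a c b d

theorem exists_InI_right (σ : Trap) (hσ : Good σ) {l : ℝ} (hl : σ.2.1 = some l) :
    ∀ᶠ x in 𝓝[>] l, InI σ x := by
  rcases hk : σ.2.2 with _ | k
  · filter_upwards [self_mem_nhdsWithin] with x hx
    exact ⟨fun l' hl' => by rw [hl] at hl'; cases hl'; exact hx,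
      fun k hk' => by rw [hk] at hk'; simp at hk'⟩
  · filter_upwards [self_mem_nhdsWithin, nhdsWithin_le_nhds (eventually_lt_nhds (hσ.1 l k hl hk))]
      with x hx hxk
    exact ⟨fun l' hl' => by rw [hl] at hl'; cases hl'; exact hx,
      fun k' hk' => by rw [hk] at hk'; cases hk'; exact hxk⟩

theorem exists_InI_left (σ : Trap) (hl : σ.2.1 = none) : ∀ᶠ x in atBot, InI σ x := by
  have h1 : ∀ x, ∀ l, σ.2.1 = some l → l < x := fun x l h => by rw [hl] at h; simp at h
  rcases hk : σ.2.2 with _ | k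
  · exact Filter.Eventually.of_forall fun x =>
      ⟨h1 x, fun k hk' => by rw [hk] at hk'; simp at hk'⟩
  · filter_upwards [eventually_lt_atBot k] with x hx
    exact ⟨h1 x, fun k' hk' => by rw [hk] at hk'; cases hk'; exact hx⟩

theorem eq_of_top (h : App τ S) (h' : App τ' S) (ht : τ.1.1 = τ'.1.1) {x : ℝ} (hx : InI τ x)
    (hx' : InI τ' x) : τ = τ' := by
  rcases ha : τ.1.1 with _ | a
  · obtain ⟨y, hy, hy'⟩ : ∃ y, (∀ b, τ.1.2 = some b → lval b x < y) ∧
        ∀ b, τ'.1.2 = some b → lval b x < y := by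
      refine ⟨max ((τ.1.2.map (lval · x)).getD 0) ((τ'.1.2.map (lval · x)).getD 0) + 1,
        fun b hb => ?_, fun b hb => ?_⟩
      · simp only [hb, Option.map_some, Option.getD_some]
        linarith [le_max_left (lval b x) ((τ'.1.2.map (lval · x)).getD 0)]
      · simp only [hb, Option.map_some, Option.getD_some]
        linarith [le_max_right ((τ.1.2.map (lval · x)).getD 0) (lval b x)]
    exact same_trap h h' hx hx' ⟨fun a hs => by rw [ha] at hs; simp at hs, hy⟩
      ⟨fun a hs => by rw [← ht, ha] at hs; simp at hs, hy'⟩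
  · have hlt : max ((τ.1.2.map (lval · x)).getD (lval a x - 1))
        ((τ'.1.2.map (lval · x)).getD (lval a x - 1)) < lval a x := by
      refine max_lt ?_ ?_
      · rcases hb : τ.1.2 with _ | b
        · simp
        · simpa using h.1.1.2 x hx a b ha hb
      · rcases hb : τ'.1.2 with _ | b
        · simp
        · simpa using h'.1.1.2 x hx' a b (ht ▸ ha) hb
    obtain ⟨y, hy1, hy2⟩ := exists_between hlt
    rw [max_lt_iff] at hy1
    exact same_trap h h' hx hx'
      ⟨fun a' hs => by rw [ha] at hs; cases hs; exact hy2,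
        fun b hb => by simpa [hb] using hy1.1⟩
      ⟨fun a' hs => by rw [← ht, ha] at hs; cases hs; exact hy2,
        fun b hb => by simpa [hb] using hy1.2⟩

theorem eq_of_bottom (h : App τ S) (h' : App τ' S) {b : ℝ × ℝ} (hb : τ.1.2 = some b)
    (hb' : τ'.1.2 = some b) {x : ℝ} (hx : InI τ x) (hx' : InI τ' x) : τ = τ' := by
  have hlt : lval b x < min ((τ.1.1.map (lval · x)).getD (lval b x + 1))
      ((τ'.1.1.map (lval · x)).getD (lval b x + 1)) := by
    refine lt_min ?_ ?_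
    · rcases ha : τ.1.1 with _ | a
      · simp
      · simpa using h.1.1.2 x hx a b ha hb
    · rcases ha : τ'.1.1 with _ | a
      · simp
      · simpa using h'.1.1.2 x hx' a b ha hb'
  obtain ⟨y, hy1, hy2⟩ := exists_between hlt
  rw [lt_min_iff] at hy2
  exact same_trap h h' hx hx'
    ⟨fun a ha => by simpa [ha] using hy2.1, fun c hc => by rw [hb] at hc; cases hc; exact hy1⟩
    ⟨fun a ha => by simpa [ha] using hy2.2, fun c hc => by rw [hb'] at hc; cases hc; exact hy1⟩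

/-- A set of lines has quadratically many trapezoids. -/
theorem card_app (S : Finset (ℝ × ℝ)) (F : Finset Trap) (hF : ∀ τ ∈ F, App τ S) :
    F.card ≤ 2 * S.card ^ 2 + S.card + 1 := by
  classical
  let key : Trap → (Bool × ((ℝ × ℝ) × (ℝ × ℝ))) ⊕ Option (ℝ × ℝ) := fun τ =>
    match τ.2.1 with
    | none => Sum.inr τ.1.1
    | some l =>
      if h : ∃ c ∈ S, ∃ a, τ.1.1 = some a ∧ a ≠ c ∧ lval a l = lval c l then
        Sum.inl (true, h.choose_spec.2.choose, h.choose)
      else if h' : ∃ c ∈ S, ∃ a, τ.1.2 = some a ∧ a ≠ c ∧ lval a l = lval c l then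
        Sum.inl (false, h'.choose_spec.2.choose, h'.choose)
      else Sum.inr none
  have spec : ∀ τ ∈ F,
      (τ.2.1 = none ∧ key τ = Sum.inr τ.1.1) ∨
      (∃ l a c, τ.2.1 = some l ∧ a ∈ S ∧ c ∈ S ∧ a ≠ c ∧ lval a l = lval c l ∧
        ((τ.1.1 = some a ∧ key τ = Sum.inl (true, a, c)) ∨
          (τ.1.2 = some a ∧ key τ = Sum.inl (false, a, c)))) := by
    intro τ hτ
    rcases hl : τ.2.1 with _ | l
    · exact Or.inl ⟨rfl, by simp only [key, hl]⟩
    · refine Or.inr ?_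
      by_cases h : ∃ c ∈ S, ∃ a, τ.1.1 = some a ∧ a ≠ c ∧ lval a l = lval c l
      · have hs := h.choose_spec.2.choose_spec
        exact ⟨l, _, _, rfl, (hF τ hτ).1.2.1 _ hs.1, h.choose_spec.1, hs.2.1, hs.2.2,
          Or.inl ⟨hs.1, by simp only [key, hl, dif_pos h]⟩⟩
      · obtain ⟨c, hc, a, ha | ha, hne, he⟩ := (hF τ hτ).1.2.2.2.1 l hl
        · exact absurd ⟨c, hc, a, ha, hne, he⟩ h
        have h' : ∃ c ∈ S, ∃ a, τ.1.2 = some a ∧ a ≠ c ∧ lval a l = lval c l :=
          ⟨c, hc, a, ha, hne, he⟩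
        have hs := h'.choose_spec.2.choose_spec
        exact ⟨l, _, _, rfl, (hF τ hτ).1.2.2.1 _ hs.1, h'.choose_spec.1, hs.2.1, hs.2.2,
          Or.inr ⟨hs.1, by simp only [key, hl, dif_neg h, dif_pos h']⟩⟩
  refine le_trans (Finset.card_le_card_of_injOn key
    (t := ((Finset.univ : Finset Bool) ×ˢ S ×ˢ S).disjSum S.insertNone) ?_ ?_) ?_
  · intro τ hτ
    rcases spec τ hτ with ⟨-, hk⟩ | ⟨l, a, c, -, ha, hc, -, -, hk⟩
    · rw [Finset.mem_coe, hk, inr_mem_disjSum, Finset.mem_insertNone]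
      exact fun a ha => (hF τ hτ).1.2.1 a ha
    · rw [Finset.mem_coe]
      rcases hk with ⟨-, hk⟩ | ⟨-, hk⟩ <;>
        rw [hk, inl_mem_disjSum, mem_product, mem_product] <;> exact ⟨mem_univ _, ha, hc⟩
  · intro τ hτ τ' hτ' he
    have hA := hF τ hτ
    have hA' := hF τ' hτ'
    rcases spec τ hτ with ⟨hl, hk⟩ | ⟨l, a, c, hl, -, -, hne, heq, hk⟩ <;>
      rcases spec τ' hτ' with ⟨hl', hk'⟩ | ⟨l', a', c', hl', -, -, hne', heq', hk'⟩
    · rw [hk, hk'] at he
      obtain ⟨x, hx, hx'⟩ := ((exists_InI_left τ hl).and (exists_InI_left τ' hl')).exists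
      exact eq_of_top hA hA' (Sum.inr.inj he) hx hx'
    · rcases hk' with ⟨-, hk'⟩ | ⟨-, hk'⟩ <;> rw [hk, hk'] at he <;> simp at he
    · rcases hk with ⟨-, hk⟩ | ⟨-, hk⟩ <;> rw [hk, hk'] at he <;> simp at he
    · have hll : ∀ (a a' c c' : ℝ × ℝ), a = a' → c = c' → a ≠ c → lval a l = lval c l →
          lval a' l' = lval c' l' → l = l' := by
        rintro a _ c _ rfl rfl hne h1 h2
        by_contra hne'
        exact cross_lt hne h1 (Ne.symm hne') h2
      rcases hk with ⟨ht, hk⟩ | ⟨ht, hk⟩ <;> rcases hk' with ⟨ht', hk'⟩ | ⟨ht', hk'⟩ <;>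
        rw [hk, hk'] at he <;> simp only [Sum.inl.injEq, Prod.mk.injEq, Bool.false_eq_true,
          Bool.true_eq_false, false_and, true_and] at he
      · obtain ⟨rfl, rfl⟩ := he
        obtain rfl := hll a a c c rfl rfl hne heq heq'
        obtain ⟨x, hx, hx'⟩ :=
          ((exists_InI_right τ hA.1.1 hl).and (exists_InI_right τ' hA'.1.1 hl')).exists
        exact eq_of_top hA hA' (ht.trans ht'.symm) hx hx'
      · obtain ⟨rfl, rfl⟩ := he
        obtain rfl := hll a a c c rfl rfl hne heq heq'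
        obtain ⟨x, hx, hx'⟩ :=
          ((exists_InI_right τ hA.1.1 hl).and (exists_InI_right τ' hA'.1.1 hl')).exists
        exact eq_of_bottom hA hA' ht ht' hx hx'
  · rw [card_disjSum, card_product, card_product, Finset.card_univ, Fintype.card_bool,
      card_insertNone]
    exact le_of_eq (by ring)

/-- A point off the lines lies in a trapezoid. -/
theorem exists_through (S : Finset (ℝ × ℝ)) (p : ℝ × ℝ) (hp : ∀ c ∈ S, lval c p.1 ≠ p.2) :
    ∃ τ, App τ S ∧ InT τ p := by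
  classical
  set x₀ := p.1 with hx₀
  obtain ⟨oa, hoa, hoa'⟩ : ∃ oa : Option (ℝ × ℝ),
      (∀ a, oa = some a → a ∈ S ∧ p.2 < lval a x₀) ∧
      ∀ c ∈ S, p.2 < lval c x₀ → ∃ a, oa = some a ∧
        (lval a x₀ < lval c x₀ ∨ (lval a x₀ = lval c x₀ ∧ a.1 ≤ c.1)) := by
    by_cases hne : (S.filter fun c => p.2 < lval c x₀).Nonempty
    · obtain ⟨a, ha, hmin⟩ := Finset.exists_min_image _ (fun c => toLex (lval c x₀, c.1)) hne
      rw [mem_filter] at ha
      refine ⟨some a, fun _ h => by cases h; exact ha, fun c hc h => ⟨a, rfl, ?_⟩⟩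
      have := hmin c (mem_filter.2 ⟨hc, h⟩)
      rwa [Prod.Lex.toLex_le_toLex] at this
    · exact ⟨none, fun a h => by simp at h,
        fun c hc h => absurd ⟨c, mem_filter.2 ⟨hc, h⟩⟩ hne⟩
  obtain ⟨ob, hob, hob'⟩ : ∃ ob : Option (ℝ × ℝ),
      (∀ b, ob = some b → b ∈ S ∧ lval b x₀ < p.2) ∧
      ∀ c ∈ S, lval c x₀ < p.2 → ∃ b, ob = some b ∧
        (lval c x₀ < lval b x₀ ∨ (lval c x₀ = lval b x₀ ∧ c.1 ≤ b.1)) := by
    by_cases hne : (S.filter fun c => lval c x₀ < p.2).Nonempty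
    · obtain ⟨a, ha, hmax⟩ := Finset.exists_max_image _ (fun c => toLex (lval c x₀, c.1)) hne
      rw [mem_filter] at ha
      refine ⟨some a, fun _ h => by cases h; exact ha, fun c hc h => ⟨a, rfl, ?_⟩⟩
      have := hmax c (mem_filter.2 ⟨hc, h⟩)
      rwa [Prod.Lex.toLex_le_toLex] at this
    · exact ⟨none, fun a h => by simp at h,
        fun c hc h => absurd ⟨c, mem_filter.2 ⟨hc, h⟩⟩ hne⟩
  -- the abscissas of the crossings with the top or the bottom line
  set X : Finset ℝ := ((oa.toFinset ∪ ob.toFinset) ×ˢ S).filter (fun q => q.1.1 ≠ q.2.1) |>.image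
    (fun q => (q.2.2 - q.1.2) / (q.1.1 - q.2.1)) with hX
  obtain ⟨lo, hlo, hlo'⟩ : ∃ lo : Option ℝ, (∀ l, lo = some l → l ∈ X ∧ l ≤ x₀) ∧
      ∀ x ∈ X, x ≤ x₀ → ∃ l, lo = some l ∧ x ≤ l := by
    by_cases hne : (X.filter (· ≤ x₀)).Nonempty
    · refine ⟨some ((X.filter (· ≤ x₀)).max' hne), fun l h => ?_, fun x hx h => ?_⟩
      · cases h; exact mem_filter.1 (max'_mem _ hne)
      · exact ⟨_, rfl, le_max' _ x (mem_filter.2 ⟨hx, h⟩)⟩
    · exact ⟨none, fun a h => by simp at h,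
        fun c hc h => absurd ⟨c, mem_filter.2 ⟨hc, h⟩⟩ hne⟩
  obtain ⟨hi, hhi, hhi'⟩ : ∃ hi : Option ℝ, (∀ l, hi = some l → l ∈ X ∧ x₀ < l) ∧
      ∀ x ∈ X, x₀ < x → ∃ l, hi = some l ∧ l ≤ x := by
    by_cases hne : (X.filter (x₀ < ·)).Nonempty
    · refine ⟨some ((X.filter (x₀ < ·)).min' hne), fun l h => ?_, fun x hx h => ?_⟩
      · cases h; exact mem_filter.1 (min'_mem _ hne)
      · exact ⟨_, rfl, min'_le _ x (mem_filter.2 ⟨hx, h⟩)⟩
    · exact ⟨none, fun a h => by simp at h,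
        fun c hc h => absurd ⟨c, mem_filter.2 ⟨hc, h⟩⟩ hne⟩
  set τ : Trap := ((oa, ob), (lo, hi)) with hτ
  have hmemX : ∀ {a c : ℝ × ℝ}, (oa = some a ∨ ob = some a) → c ∈ S → a.1 ≠ c.1 →
      (c.2 - a.2) / (a.1 - c.1) ∈ X := by
    intro a c ha hc hne
    rw [hX]
    refine mem_image.2 ⟨(a, c), mem_filter.2 ⟨mem_product.2 ⟨?_, hc⟩, hne⟩, rfl⟩
    rcases ha with ha | ha <;> simp [ha]
  have hcr : ∀ {a c : ℝ × ℝ}, a.1 ≠ c.1 → ∀ x,
      lval a x - lval c x = (a.1 - c.1) * (x - (c.2 - a.2) / (a.1 - c.1)) := by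
    intro a c hne x
    have := sub_ne_zero.2 hne
    rw [mul_sub, mul_div_cancel₀ _ this]
    simp only [lval]; ring
  have stay : ∀ {a c : ℝ × ℝ}, (oa = some a ∨ ob = some a) → c ∈ S → ∀ {x}, InI τ x →
      (lval c x₀ < lval a x₀ → lval c x < lval a x) ∧
      (lval a x₀ < lval c x₀ → lval a x < lval c x) := by
    intro a c ha hc x hx
    by_cases hne : a.1 = c.1
    · simp only [lval, hne]; constructor <;> intro h <;> linarith
    set u := (c.2 - a.2) / (a.1 - c.1) with hu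
    have h1 := hcr hne x
    have h2 := hcr hne x₀
    rw [← hu] at h1 h2
    have hside : (u < x ∧ u < x₀) ∨ (x < u ∧ x₀ < u) ∨ u = x₀ := by
      rcases lt_trichotomy u x₀ with h | h | h
      · obtain ⟨l, hl, hle⟩ := hlo' u (hmemX ha hc hne) h.le
        exact Or.inl ⟨hle.trans_lt (hx.1 l hl), h⟩
      · exact Or.inr (Or.inr h)
      · obtain ⟨l, hl, hle⟩ := hhi' u (hmemX ha hc hne) h
        exact Or.inr (Or.inl ⟨(hx.2 l hl).trans_le hle, h⟩)
    rcases hside with ⟨u1, u2⟩ | ⟨u1, u2⟩ | hu0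
    · rcases lt_or_gt_of_ne (sub_ne_zero.2 hne) with hs | hs <;> constructor <;> intro h <;>
        nlinarith [mul_pos (sub_pos.2 u1) (sub_pos.2 u2)]
    · rcases lt_or_gt_of_ne (sub_ne_zero.2 hne) with hs | hs <;> constructor <;> intro h <;>
        nlinarith [mul_pos (sub_pos.2 u1) (sub_pos.2 u2)]
    · rw [hu0, sub_self, mul_zero] at h2
      constructor <;> intro h <;> linarith
  have tie : ∀ {a c : ℝ × ℝ}, (oa = some a ∨ ob = some a) → c ∈ S → ∀ {x}, InI τ x →
      lval a x₀ = lval c x₀ → (a.1 ≤ c.1 → lval a x ≤ lval c x) ∧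
        (c.1 ≤ a.1 → lval c x ≤ lval a x) := by
    intro a c ha hc x hx he
    by_cases hne : a.1 = c.1
    · simp only [lval, hne] at he ⊢; constructor <;> intro _ <;> linarith
    set u := (c.2 - a.2) / (a.1 - c.1) with hu
    have h1 := hcr hne x
    have h2 := hcr hne x₀
    rw [← hu] at h1 h2
    rw [he, sub_self] at h2
    have hu' : x₀ = u := sub_eq_zero.1 ((mul_eq_zero.1 h2.symm).resolve_left (sub_ne_zero.2 hne))
    obtain ⟨l, hl, hle⟩ := hlo' u (hmemX ha hc hne) hu'.ge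
    have hxu : u < x := hle.trans_lt (hx.1 l hl)
    constructor <;> intro h <;> nlinarith
  have hgood : Good τ := by
    refine ⟨fun l k hl hk => (hlo l hl).2.trans_lt (hhi k hk).2, fun x hx a b ha hb => ?_⟩
    exact (stay (Or.inl ha) (hob b hb).1 hx).1 ((hob b hb).2.trans (hoa a ha).2)
  refine ⟨τ, ⟨⟨hgood, fun a ha => (hoa a ha).1, fun b hb => (hob b hb).1, fun l hl => ?_,
    fun l hl => ?_⟩, fun c hc hconf => ?_⟩, ⟨⟨fun l hl => (hlo l hl).2, fun k hk => (hhi k hk).2⟩,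
      fun a ha => (hoa a ha).2, fun b hb => (hob b hb).2⟩⟩
  · obtain ⟨⟨a, c⟩, hq, rfl⟩ := mem_image.1 (hlo l hl).1
    simp only [mem_filter, mem_product, mem_union, Option.mem_toFinset, Option.mem_def] at hq
    exact ⟨c, hq.1.2, a, hq.1.1, fun h => hq.2 (by rw [h]),
      sub_eq_zero.1 (by rw [hcr hq.2, sub_self, mul_zero])⟩
  · obtain ⟨⟨a, c⟩, hq, rfl⟩ := mem_image.1 (hhi l hl).1
    simp only [mem_filter, mem_product, mem_union, Option.mem_toFinset, Option.mem_def] at hq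
    exact ⟨c, hq.1.2, a, hq.1.1, fun h => hq.2 (by rw [h]),
      sub_eq_zero.1 (by rw [hcr hq.2, sub_self, mul_zero])⟩
  · obtain ⟨x, hx, h1, h2⟩ := hconf
    rcases lt_or_gt_of_ne (hp c hc) with h | h
    · obtain ⟨b, hb, hlt | ⟨he, hs⟩⟩ := hob' c hc h
      · linarith [(stay (Or.inr hb) hc hx).1 hlt, h2 b hb]
      · linarith [(tie (Or.inr hb) hc hx he.symm).2 hs, h2 b hb]
    · obtain ⟨a, ha, hlt | ⟨he, hs⟩⟩ := hoa' c hc h
      · linarith [(stay (Or.inl ha) hc hx).2 hlt, h1 a ha]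
      · linarith [(tie (Or.inl ha) hc hx he).1 hs, h1 a ha]

end Vale.Agent.P054.ST
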