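import Vale.Agent.P054.ST.Decomp

/-!
The Szemerédi–Trotter incidence bound for points and non-vertical lines of the plane, by random
sampling of lines.
-/

namespace Vale.Agent.P054.ST

open Finset Filter Topology

/-- The incidences of points and non-vertical lines. -/
noncomputable def inc (P L : Finset (ℝ × ℝ)) : Finset ((ℝ × ℝ) × (ℝ × ℝ)) :=
  open Classical in (P ×ˢ L).filter fun q => q.1.2 = lval q.2 q.1.1

theorem two_points {a c p q : ℝ × ℝ} (hne : a ≠ c) (h1 : p.2 = lval a p.1) (h2 : p.2 = lval c p.1)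
    (h3 : q.2 = lval a q.1) (h4 : q.2 = lval c q.1) : p = q := by
  have hx : q.1 = p.1 := by
    by_contra h
    exact cross_lt hne (h1.symm.trans h2) h (h3.symm.trans h4)
  exact Prod.ext hx.symm (by rw [h1, h3, hx])

/-- The elementary incidence bound. -/
theorem inc_weak (P L : Finset (ℝ × ℝ)) :
    ((inc P L).card : ℝ) ≤ L.card + P.card * Real.sqrt L.card := by
  classical
  set f : (ℝ × ℝ) → Finset (ℝ × ℝ) := fun l => P.filter fun p => p.2 = lval l p.1 with hf
  have hs : (inc P L).card = ∑ l ∈ L, (f l).card := by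
    rw [Finset.card_eq_sum_card_fiberwise (f := Prod.snd) (s := inc P L) (t := L)
      (fun q hq => (mem_product.1 (mem_filter.1 hq).1).2)]
    refine sum_congr rfl fun l hl => Finset.card_nbij' Prod.fst (fun p => (p, l)) ?_ ?_ ?_ ?_
    · intro q hq
      simp only [Finset.mem_coe, inc, mem_filter, mem_product] at hq
      simp only [hf, Finset.mem_coe, mem_filter]
      exact ⟨hq.1.1.1, hq.2 ▸ hq.1.2⟩
    · intro p hp
      simp only [hf, Finset.mem_coe, mem_filter] at hp
      simp only [Finset.mem_coe, inc, mem_filter, mem_product]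
      exact ⟨⟨⟨hp.1, hl⟩, hp.2⟩, trivial⟩
    · intro q hq
      simp only [Finset.mem_coe, mem_filter] at hq
      exact Prod.ext rfl hq.2.symm
    · intro p _; rfl
  have hsq : ∑ l ∈ L, ((f l).card : ℝ) ^ 2 ≤ (inc P L).card + (P.card : ℝ) ^ 2 := by
    have h1 : ∑ l ∈ L, (f l).offDiag.card ≤ P.offDiag.card := by
      rw [← card_biUnion]
      · refine card_le_card (biUnion_subset.2 fun l _ q hq => ?_)
        simp only [hf, mem_offDiag, mem_filter] at hq ⊢
        exact ⟨hq.1.1, hq.2.1.1, hq.2.2⟩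
      · intro a _ c _ hne
        rw [Function.onFun, disjoint_left]
        intro q hq hq'
        simp only [hf, mem_offDiag, mem_filter] at hq hq'
        exact hq.2.2 (two_points hne hq.1.2 hq'.1.2 hq.2.1.2 hq'.2.1.2)
    have h2 : ∑ l ∈ L, (f l).card ^ 2 ≤ (inc P L).card + P.card ^ 2 := by
      rw [hs]
      have h3 : ∀ l ∈ L, (f l).card ^ 2 = (f l).card + (f l).offDiag.card := fun l _ => by
        rw [offDiag_card, sq, Nat.add_sub_cancel' (Nat.le_mul_self _)]
      rw [sum_congr rfl h3, sum_add_distrib]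
      refine Nat.add_le_add le_rfl (h1.trans ?_)
      rw [offDiag_card, sq]; exact Nat.sub_le _ _
    exact_mod_cast h2
  have hcs := sq_sum_le_card_mul_sum_sq (s := L) (f := fun l => ((f l).card : ℝ))
  rw [← Nat.cast_sum, ← hs] at hcs
  set s : ℝ := ((inc P L).card : ℝ)
  set k : ℝ := (L.card : ℝ)
  set m : ℝ := (P.card : ℝ)
  have hk : 0 ≤ k := Nat.cast_nonneg _
  have hm : 0 ≤ m := Nat.cast_nonneg _
  have h := hcs.trans (mul_le_mul_of_nonneg_left hsq hk)
  by_contra hlt
  push Not at hlt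
  have hr := Real.sqrt_nonneg k
  have hr2 := Real.mul_self_sqrt hk
  nlinarith [mul_lt_mul'' hlt (show m * Real.sqrt k < s - k by linarith)
    (by positivity : 0 ≤ k + m * Real.sqrt k) (by positivity : 0 ≤ m * Real.sqrt k),
    mul_nonneg hk (mul_nonneg hm hr)]

theorem conf_of_inc {τ : Trap} {p l : ℝ × ℝ} (hp : InT τ p) (hl : p.2 = lval l p.1) :
    Conf τ l := by
  have h1 : ∀ᶠ x in 𝓝[>] p.1, ∀ l, τ.2.1 = some l → l < x := by
    filter_upwards [self_mem_nhdsWithin] with x hx l hl
    exact (hp.1.1 l hl).trans_lt hx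
  have h2 : ∀ᶠ x in 𝓝[>] p.1, ∀ k, τ.2.2 = some k → x < k := by
    rcases hk : τ.2.2 with _ | k
    · exact Filter.Eventually.of_forall fun x k hk' => by simp at hk'
    · filter_upwards [nhdsWithin_le_nhds (eventually_lt_nhds (hp.1.2 k hk))] with x hx k' hk'
      cases hk'; exact hx
  have h3 : ∀ᶠ x in 𝓝[>] p.1, ∀ a, τ.1.1 = some a → 0 < lval a x - lval l x := by
    rcases ha : τ.1.1 with _ | a
    · exact Filter.Eventually.of_forall fun x k hk' => by simp at hk'
    · have h0 : (0 : ℝ) < lval a p.1 - lval l p.1 := by rw [← hl]; linarith [hp.2.1 a ha]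
      filter_upwards [nhdsWithin_le_nhds
        (((continuous_lval a).sub (continuous_lval l)).continuousAt.eventually_const_lt h0)]
        with x hx k' hk'
      cases hk'; exact hx
  have h4 : ∀ᶠ x in 𝓝[>] p.1, ∀ a, τ.1.2 = some a → lval a x - lval l x < 0 := by
    rcases ha : τ.1.2 with _ | a
    · exact Filter.Eventually.of_forall fun x k hk' => by simp at hk'
    · have h0 : lval a p.1 - lval l p.1 < 0 := by rw [← hl]; linarith [hp.2.2 a ha]
      filter_upwards [nhdsWithin_le_nhds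
        (((continuous_lval a).sub (continuous_lval l)).continuousAt.eventually_lt_const h0)]
        with x hx k' hk'
      cases hk'; exact hx
  obtain ⟨x, a, b, c, d⟩ := (h1.and (h2.and (h3.and h4))).exists
  exact ⟨x, ⟨a, b⟩, fun u hu => by linarith [c u hu], fun u hu => by linarith [d u hu]⟩

/-- All trapezoids whose data come from `L`. -/
noncomputable def traps (L : Finset (ℝ × ℝ)) : Finset Trap :=
  open Classical in
  (L.insertNone ×ˢ L.insertNone) ×ˢ
    (((L ×ˢ L).image fun q => (q.2.2 - q.1.2) / (q.1.1 - q.2.1)).insertNone ×ˢ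
      ((L ×ˢ L).image fun q => (q.2.2 - q.1.2) / (q.1.1 - q.2.1)).insertNone)

theorem mem_traps {L S : Finset (ℝ × ℝ)} (hS : S ⊆ L) {τ : Trap} (h : App τ S) :
    τ ∈ traps L := by
  classical
  obtain ⟨⟨-, ha, hb, hl, hh⟩, -⟩ := h
  have key : ∀ x, (∃ c ∈ S, EvW τ c x) →
      x ∈ (L ×ˢ L).image fun q => (q.2.2 - q.1.2) / (q.1.1 - q.2.1) := by
    rintro x ⟨c, hc, a, hab, hne, he⟩
    have haS : a ∈ S := hab.elim (ha a) (hb a)
    have hsl : a.1 ≠ c.1 := fun h => hne (Prod.ext h (by simp only [lval, h] at he; linarith))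
    refine mem_image.2 ⟨(a, c), mem_product.2 ⟨hS haS, hS hc⟩, ?_⟩
    rw [div_eq_iff (sub_ne_zero.2 hsl)]
    simp only [lval] at he
    linarith
  simp only [traps, mem_product, mem_insertNone]
  exact ⟨⟨fun a h => hS (ha a h), fun b h => hS (hb b h)⟩, fun x h => key x (hl x h),
    fun x h => key x (hh x h)⟩

/-- The incidences, split along one sample. -/
theorem inc_split (P L S : Finset (ℝ × ℝ)) (hS : S ⊆ L) {r : ℝ} (hr : 0 < r) :
    open Classical in
    ((inc P L).card : ℝ) ≤ ((inc P L).filter (fun q => q.2 ∈ S)).card + L.card * S.card +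
      ∑ τ ∈ (traps L).filter (App · S), ((L.filter (Conf τ)).card +
        (P.filter (InT τ)).card * ((L.filter (Conf τ)).card * r + 1 / r)) := by
  classical
  set F := (traps L).filter (App · S)
  set I := inc P L with hI
  set B := I.filter fun q => q.2 ∉ S ∧ ∃ c ∈ S, q.1.2 = lval c q.1.1 with hB
  have hcover : I ⊆ I.filter (fun q => q.2 ∈ S) ∪ (B ∪
      F.biUnion fun τ => inc (P.filter (InT τ)) (L.filter (Conf τ))) := by
    intro q hq
    by_cases h1 : q.2 ∈ S
    · exact mem_union_left _ (mem_filter.2 ⟨hq, h1⟩)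
    refine mem_union_right _ ?_
    by_cases h2 : ∃ c ∈ S, q.1.2 = lval c q.1.1
    · exact mem_union_left _ (mem_filter.2 ⟨hq, h1, h2⟩)
    push Not at h2
    obtain ⟨τ, hA, hT⟩ := exists_through S q.1 fun c hc => (h2 c hc).symm
    simp only [hI, inc, mem_filter, mem_product] at hq
    refine mem_union_right _ (mem_biUnion.2 ⟨τ, mem_filter.2 ⟨mem_traps hS hA, hA⟩, ?_⟩)
    simp only [inc, mem_filter, mem_product]
    exact ⟨⟨⟨hq.1.1, hT⟩, hq.1.2, conf_of_inc hT hq.2⟩, hq.2⟩
  have hBc : B.card ≤ L.card * S.card := by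
    rw [← card_product]
    have hex : ∀ q ∈ B, ∃ c ∈ S, q.1.2 = lval c q.1.1 := fun q hq => (mem_filter.1 hq).2.2
    choose! g hg1 hg2 using hex
    refine card_le_card_of_injOn (fun q => (q.2, g q)) (fun q hq => ?_) fun q hq q' hq' he => ?_
    · exact mem_coe.2 (mem_product.2
        ⟨(mem_product.1 (mem_filter.1 (mem_filter.1 hq).1).1).2, hg1 q hq⟩)
    · simp only [Prod.mk.injEq] at he
      refine Prod.ext (two_points (a := q.2) (c := g q) ?_ (mem_filter.1 (mem_filter.1 hq).1).2
        (hg2 q hq) ?_ ?_) he.1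
      · exact fun h => (mem_filter.1 hq).2.1 (h ▸ hg1 q hq)
      · rw [he.1]; exact (mem_filter.1 (mem_filter.1 hq').1).2
      · rw [he.2]; exact hg2 q' hq'
  have h := (card_le_card hcover).trans ((card_union_le _ _).trans
    (Nat.add_le_add le_rfl ((card_union_le _ _).trans (Nat.add_le_add hBc card_biUnion_le))))
  refine (Nat.cast_le.2 h).trans ?_
  push_cast
  rw [add_assoc]
  refine add_le_add le_rfl (add_le_add le_rfl (sum_le_sum fun τ _ => ?_))
  refine (inc_weak _ _).trans (add_le_add le_rfl ?_)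
  refine mul_le_mul_of_nonneg_left ?_ (Nat.cast_nonneg _)
  set k : ℝ := ((L.filter (Conf τ)).card : ℝ)
  have hk : 0 ≤ k := Nat.cast_nonneg _
  have h2 := Real.mul_self_sqrt hk
  have h3 : 0 ≤ (Real.sqrt k * r - 1) ^ 2 / r := by positivity
  have h4 : (Real.sqrt k * r - 1) ^ 2 / r = k * r - 2 * Real.sqrt k + 1 / r := by
    field_simp; linear_combination r ^ 2 * h2
  nlinarith [Real.sqrt_nonneg k]

/-- The incidence bound at a given sampling density. -/
theorem inc_sampled (P L : Finset (ℝ × ℝ)) {q : ℝ} (h0 : 0 < q) (h1 : q ≤ 1 / 2) :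
    ((inc P L).card : ℝ) ≤ 100 * (q * (L.card : ℝ) ^ 2 + L.card + 1 / q +
      P.card / Real.sqrt q) := by
  classical
  set n : ℝ := (L.card : ℝ)
  set m : ℝ := (P.card : ℝ)
  set r : ℝ := Real.sqrt q
  have hr : 0 < r := Real.sqrt_pos.2 h0
  have hr2 : r * r = q := Real.mul_self_sqrt h0.le
  have hw : ∀ S : Finset (ℝ × ℝ), 0 ≤ wgt L q S := fun S => wgt_nonneg h0.le (by linarith)
  have hw2 : ∀ S : Finset (ℝ × ℝ), 0 ≤ wgt L (q / 2) S := fun S =>
    wgt_nonneg (by linarith) (by linarith)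
  set k : Trap → ℝ := fun τ => ((L.filter (Conf τ)).card : ℝ) with hk
  set mP : Trap → ℝ := fun τ => ((P.filter (InT τ)).card : ℝ) with hmP
  set Pr : ℝ → Trap → ℝ := fun s τ => ∑ S ∈ L.powerset with App τ S, wgt L s S with hPr
  have hdecay : ∀ τ, k τ * Pr q τ ≤ 32 / q * Pr (q / 2) τ := by
    intro τ
    have he : ∀ s : ℝ, Pr s τ =
        ∑ S ∈ L.powerset with (Def4 τ S ∧ Disjoint (L.filter (Conf τ)) S), wgt L s S := by
      intro s
      refine sum_congr (filter_congr fun S hS => ?_) fun _ _ => rfl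
      simp only [App, disjoint_right, mem_filter, not_and]
      exact and_congr_right fun _ => ⟨fun h c hc _ => h c hc,
        fun h c hc => h hc (mem_powerset.1 hS hc)⟩
    rw [he, he]
    exact conflict_decay h0 h1 (Def4 τ) (fun S _ hU => def4_witness hU) _ (filter_subset _ _)
  have hsum_app : ∀ s : ℝ, 0 ≤ s → s ≤ 1 →
      ∑ τ ∈ traps L, Pr s τ ≤ 3 * (s * n) + 2 * (s ^ 2 * n ^ 2) + 1 := by
    intro s hs0 hs1
    simp only [hPr, sum_filter]
    rw [sum_comm]
    have hb : ∀ S ∈ L.powerset, (∑ τ ∈ traps L, if App τ S then wgt L s S else 0) ≤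
        2 * (wgt L s S * (S.card : ℝ) ^ 2) + wgt L s S * S.card + wgt L s S := by
      intro S _
      rw [← sum_filter, sum_const, nsmul_eq_mul]
      refine (mul_le_mul_of_nonneg_right (Nat.cast_le.2
        (card_app S _ fun τ hτ => (mem_filter.1 hτ).2)) (wgt_nonneg hs0 hs1)).trans (le_of_eq ?_)
      push_cast; ring
    refine (sum_le_sum hb).trans ?_
    rw [sum_add_distrib, sum_add_distrib, ← mul_sum, sum_wgt, sum_wgt_card]
    linarith [sum_wgt_card_sq (L := L) (q := s)]
  have hswap : ∀ (s : ℝ) (g : Trap → ℝ), ∑ τ ∈ traps L, mP τ * (g τ * Pr s τ) =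
      ∑ p ∈ P, ∑ τ ∈ traps L with InT τ p, g τ * Pr s τ := by
    intro s g
    simp only [sum_filter]
    rw [sum_comm]
    refine sum_congr rfl fun τ _ => ?_
    rw [← sum_filter, sum_const, nsmul_eq_mul]
  have hone : ∀ s : ℝ, 0 ≤ s → s ≤ 1 → ∀ p, ∑ τ ∈ traps L with InT τ p, Pr s τ ≤ 1 := by
    intro s hs0 hs1 p
    simp only [hPr, sum_filter (s := L.powerset)]
    rw [sum_comm]
    refine le_trans (sum_le_sum fun S _ => ?_) (sum_wgt L s).le
    rw [← sum_filter, sum_const, nsmul_eq_mul]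
    refine mul_le_of_le_one_left (wgt_nonneg hs0 hs1) ?_
    rw [Nat.cast_le_one, card_le_one]
    intro a ha b hb
    simp only [mem_filter] at ha hb
    exact unique_through ha.2 hb.2 ha.1.2 hb.1.2
  -- the average over samples
  set I : ℝ := ((inc P L).card : ℝ)
  have havg : I ≤ q * I + n * (q * n) + ∑ τ ∈ traps L, (k τ + mP τ * (k τ * r + 1 / r)) * Pr q τ := by
    have h : ∀ S ∈ L.powerset, wgt L q S * I ≤ wgt L q S *
        (((inc P L).filter (fun x => x.2 ∈ S)).card : ℝ) + n * (wgt L q S * S.card) +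
        ∑ τ ∈ traps L, if App τ S then wgt L q S * (k τ + mP τ * (k τ * r + 1 / r)) else 0 := by
      intro S hS
      refine (mul_le_mul_of_nonneg_left (inc_split P L S (mem_powerset.1 hS) hr) (hw S)).trans
        (le_of_eq ?_)
      rw [← sum_filter, mul_add, mul_add, mul_sum]
      refine congrArg₂ (· + ·) (congrArg₂ (· + ·) rfl ?_) (sum_congr rfl fun τ _ => ?_) <;>
        simp only [hk, hmP, n] <;> ring
    have h2 := sum_le_sum h
    rw [← sum_mul, sum_wgt, one_mul, sum_add_distrib, sum_add_distrib, ← mul_sum, sum_wgt_card]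
      at h2
    have h3 : ∑ S ∈ L.powerset, wgt L q S *
        (((inc P L).filter (fun x => x.2 ∈ S)).card : ℝ) = q * I := by
      have e : ∀ S ∈ L.powerset, wgt L q S * (((inc P L).filter (fun x => x.2 ∈ S)).card : ℝ) =
          ∑ x ∈ inc P L, if x.2 ∈ S then wgt L q S else 0 := fun S _ => by
        rw [← sum_filter, sum_const, nsmul_eq_mul, mul_comm]
      rw [sum_congr rfl e, sum_comm]
      simp_rw [← sum_filter]
      rw [sum_congr rfl fun x (hx : x ∈ inc P L) =>
        sum_wgt_mem (L := L) (show x.2 ∈ L from (mem_product.1 (mem_filter.1 hx).1).2) q, sum_const,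
        nsmul_eq_mul, mul_comm]
    have h4 : ∀ τ, (∑ S ∈ L.powerset,
        if App τ S then wgt L q S * (k τ + mP τ * (k τ * r + 1 / r)) else 0) =
        (k τ + mP τ * (k τ * r + 1 / r)) * Pr q τ := fun τ => by
      rw [hPr, ← sum_filter, mul_sum]
      exact sum_congr rfl fun _ _ => mul_comm _ _
    rw [h3, sum_comm, sum_congr rfl fun τ _ => h4 τ] at h2
    exact h2
  have hA : ∑ τ ∈ traps L, k τ * Pr q τ ≤ 32 / q * (3 * (q / 2 * n) + 2 * ((q / 2) ^ 2 * n ^ 2) + 1) :=
    (sum_le_sum fun τ _ => hdecay τ).trans (by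
      rw [← mul_sum]
      exact mul_le_mul_of_nonneg_left (hsum_app _ (by linarith) (by linarith)) (by positivity))
  have hB : ∑ τ ∈ traps L, mP τ * (k τ * Pr q τ) ≤ m * (32 / q) := by
    rw [hswap q k]
    refine (sum_le_sum fun p _ => (sum_le_sum fun τ _ => hdecay τ).trans ?_).trans
      (le_of_eq (by rw [sum_const, nsmul_eq_mul]))
    rw [← mul_sum]
    exact mul_le_of_le_one_right (by positivity) (hone _ (by linarith) (by linarith) p)
  have hC : ∑ τ ∈ traps L, mP τ * (1 * Pr q τ) ≤ m := by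
    rw [hswap q fun _ => 1]
    simp only [one_mul]
    exact (sum_le_sum fun p _ => hone q h0.le (by linarith) p).trans (le_of_eq (by simp [m]))
  have hsplit : ∑ τ ∈ traps L, (k τ + mP τ * (k τ * r + 1 / r)) * Pr q τ =
      ∑ τ ∈ traps L, k τ * Pr q τ + r * ∑ τ ∈ traps L, mP τ * (k τ * Pr q τ) +
        1 / r * ∑ τ ∈ traps L, mP τ * (1 * Pr q τ) := by
    rw [mul_sum, mul_sum, ← sum_add_distrib, ← sum_add_distrib]
    exact sum_congr rfl fun τ _ => by ring
  rw [hsplit] at havg
  have hB' := mul_le_mul_of_nonneg_left hB hr.le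
  have hC' := mul_le_mul_of_nonneg_left hC (one_div_pos.2 hr).le
  have e1 : r * (m * (32 / q)) = 32 * (m / r) := by
    rw [← hr2]; field_simp
  have e2 : 32 / q * (3 * (q / 2 * n) + 2 * ((q / 2) ^ 2 * n ^ 2) + 1) =
      48 * n + 16 * (q * n ^ 2) + 32 * (1 / q) := by field_simp; ring
  rw [e1] at hB'
  rw [e2] at hA
  simp only [one_div_mul_eq_div] at hC' havg
  have hI0 : (0 : ℝ) ≤ I := Nat.cast_nonneg _
  have : 0 ≤ m / r := by positivity
  have : 0 ≤ 1 / q := by positivity
  have : 0 ≤ n := Nat.cast_nonneg _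
  have : 0 ≤ q * n ^ 2 := by positivity
  nlinarith [mul_le_mul_of_nonneg_right h1 hI0]

/-- The Szemerédi–Trotter theorem. -/
theorem szemeredi_trotter (P L : Finset (ℝ × ℝ)) : ((inc P L).card : ℝ) ≤
    500 * (((P.card : ℝ) * L.card) ^ ((2 : ℝ) / 3) + P.card + L.card) := by
  classical
  set m : ℝ := (P.card : ℝ) with hm
  set n : ℝ := (L.card : ℝ) with hn
  rcases Nat.eq_zero_or_pos L.card with hL | hL
  · have : inc P L = ∅ := by simp [inc, Finset.card_eq_zero.1 hL]
    rw [this, card_empty, Nat.cast_zero]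
    positivity
  rcases Nat.eq_zero_or_pos P.card with hP | hP
  · have : inc P L = ∅ := by simp [inc, Finset.card_eq_zero.1 hP]
    rw [this, card_empty, Nat.cast_zero]
    positivity
  have hn1 : 1 ≤ n := by rw [hn]; exact_mod_cast hL
  have hm1 : 1 ≤ m := by rw [hm]; exact_mod_cast hP
  set y : ℝ := (m * n) ^ ((1 : ℝ) / 3) with hy
  have hy0 : 0 < y := Real.rpow_pos_of_pos (by positivity) _
  have hy3 : y * y * y = m * n := by
    rw [hy, ← Real.rpow_add (by positivity), ← Real.rpow_add (by positivity)]; norm_num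
  have hy2 : (m * n) ^ ((2 : ℝ) / 3) = y * y := by
    rw [hy, ← Real.rpow_add (by positivity)]; norm_num
  rw [hy2]
  set θ : ℝ := (y / n) ^ 2
  set q : ℝ := min (1 / 2) (max (1 / (2 * n)) θ)
  have hq2 : q ≤ 1 / 2 := min_le_left _ _
  have hql : 1 / (2 * n) ≤ q := le_min
    (div_le_div_of_nonneg_left zero_le_one two_pos (by linarith)) (le_max_left _ _)
  have hq0 : 0 < q := lt_of_lt_of_le (by positivity) hql
  have h := inc_sampled P L hq0 hq2
  rw [← hn, ← hm] at h
  have a1 : 1 / q ≤ 2 * n := by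
    rw [div_le_iff₀ hq0]
    rw [div_le_iff₀ (by positivity)] at hql
    linarith
  have a2 : q * n ^ 2 ≤ n + y * y := by
    refine (mul_le_mul_of_nonneg_right ((min_le_right _ _).trans
      (max_le_add_of_nonneg (by positivity) (by positivity))) (by positivity)).trans ?_
    simp only [θ]
    rw [add_mul]
    refine add_le_add ?_ (le_of_eq (by field_simp))
    rw [div_mul_eq_mul_div, div_le_iff₀ (by positivity)]
    nlinarith
  have a3 : m / Real.sqrt q ≤ 2 * m + y * y := by
    rcases le_or_gt (1 / 2 : ℝ) θ with hθ | hθ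
    · have hq : q = 1 / 2 := min_eq_left (hθ.trans (le_max_right _ _))
      have : (1 / 2 : ℝ) ≤ Real.sqrt q := by
        rw [hq]; exact Real.le_sqrt_of_sq_le (by norm_num)
      have := div_le_div_of_nonneg_left (by linarith : (0 : ℝ) ≤ m) (by norm_num) this
      nlinarith
    · have hq : θ ≤ q := le_min hθ.le (le_max_right _ _)
      have hyn : 0 < y / n := by positivity
      have h1 : y / n ≤ Real.sqrt q := Real.le_sqrt_of_sq_le hq
      refine (div_le_div_of_nonneg_left (by linarith : (0 : ℝ) ≤ m) hyn h1).trans ?_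
      rw [div_div_eq_mul_div, div_le_iff₀ hy0]
      nlinarith
  nlinarith

end Vale.Agent.P054.ST
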