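import Vale.Agent.P054.ST.Sample

/-!
The trapezoids of a set of non-vertical lines `y = l.1 * x + l.2`: their uniqueness, their number,
and the trapezoid containing a given point off the lines.
-/

namespace Vale.Agent.P054.ST

open Finset

/-- The height of the line `l` at the abscissa `x`. -/
def lval (l : ℝ × ℝ) (x : ℝ) : ℝ := l.1 * x + l.2

/-- A candidate trapezoid: a top line, a bottom line, a left and a right end. -/
abbrev Trap : Type :=
  (Option (ℝ × ℝ) × Option (ℝ × ℝ)) × (Option ℝ × Option ℝ)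

/-- The open interval of abscissas of a trapezoid. -/
def InI (τ : Trap) (x : ℝ) : Prop :=
  (∀ l, τ.2.1 = some l → l < x) ∧ ∀ h, τ.2.2 = some h → x < h

/-- The half-open interval of abscissas of a trapezoid. -/
def InI0 (τ : Trap) (x : ℝ) : Prop :=
  (∀ l, τ.2.1 = some l → l ≤ x) ∧ ∀ h, τ.2.2 = some h → x < h

/-- Strictly between the bottom and the top line. -/
def Btw (τ : Trap) (x y : ℝ) : Prop :=
  (∀ a, τ.1.1 = some a → y < lval a x) ∧ ∀ b, τ.1.2 = some b → lval b x < y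

/-- The point lies in the trapezoid. -/
def InT (τ : Trap) (p : ℝ × ℝ) : Prop := InI0 τ p.1 ∧ Btw τ p.1 p.2

/-- The line enters the open trapezoid. -/
def Conf (τ : Trap) (l : ℝ × ℝ) : Prop := ∃ x, InI τ x ∧ Btw τ x (lval l x)

/-- The trapezoid has a nonempty interior over each of its abscissas. -/
def Good (τ : Trap) : Prop :=
  (∀ l h, τ.2.1 = some l → τ.2.2 = some h → l < h) ∧
    ∀ x, InI τ x → ∀ a b, τ.1.1 = some a → τ.1.2 = some b → lval b x < lval a x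

/-- The line `c` crosses the top or the bottom line at the abscissa `x`. -/
def EvW (τ : Trap) (c : ℝ × ℝ) (x : ℝ) : Prop :=
  ∃ a, (τ.1.1 = some a ∨ τ.1.2 = some a) ∧ a ≠ c ∧ lval a x = lval c x

/-- The lines of `S` define the trapezoid. -/
def Def4 (τ : Trap) (S : Finset (ℝ × ℝ)) : Prop :=
  Good τ ∧ (∀ a, τ.1.1 = some a → a ∈ S) ∧ (∀ b, τ.1.2 = some b → b ∈ S) ∧
    (∀ l, τ.2.1 = some l → ∃ c ∈ S, EvW τ c l) ∧ ∀ h, τ.2.2 = some h → ∃ c ∈ S, EvW τ c h

/-- The trapezoid appears among the lines of `S`. -/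
def App (τ : Trap) (S : Finset (ℝ × ℝ)) : Prop := Def4 τ S ∧ ∀ c ∈ S, ¬ Conf τ c

theorem continuous_lval (l : ℝ × ℝ) : Continuous (lval l) := by
  unfold lval; fun_prop

theorem def4_witness {τ : Trap} {S : Finset (ℝ × ℝ)} (h : Def4 τ S) :
    ∃ W ⊆ S, W.card ≤ 4 ∧ ∀ T, W ⊆ T → T ⊆ S → Def4 τ T := by
  classical
  obtain ⟨hg, ha, hb, hl, hh⟩ := h
  have key : ∀ {β : Type} (o : Option β) (P : β → (ℝ × ℝ) → Prop),
      (∀ v, o = some v → ∃ c ∈ S, P v c) →
      ∃ W ⊆ S, W.card ≤ 1 ∧ ∀ v, o = some v → ∃ c ∈ W, P v c := by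
    intro β o P ho
    cases o with
    | none => exact ⟨∅, empty_subset _, by simp, fun v hv => by simp at hv⟩
    | some v =>
      obtain ⟨c, hc, hP⟩ := ho v rfl
      exact ⟨{c}, singleton_subset_iff.2 hc, by simp, fun w hw => ⟨c, by simp,
        (Option.some.inj hw) ▸ hP⟩⟩
  obtain ⟨W₁, s₁, c₁, w₁⟩ := key τ.1.1 (fun a c => a = c) fun a h => ⟨a, ha a h, rfl⟩
  obtain ⟨W₂, s₂, c₂, w₂⟩ := key τ.1.2 (fun a c => a = c) fun a h => ⟨a, hb a h, rfl⟩
  obtain ⟨W₃, s₃, c₃, w₃⟩ := key τ.2.1 (fun x c => EvW τ c x) hl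
  obtain ⟨W₄, s₄, c₄, w₄⟩ := key τ.2.2 (fun x c => EvW τ c x) hh
  refine ⟨W₁ ∪ W₂ ∪ (W₃ ∪ W₄), union_subset (union_subset s₁ s₂) (union_subset s₃ s₄), ?_,
    fun T hT _ => ⟨hg, fun a h => ?_, fun a h => ?_, fun x h => ?_, fun x h => ?_⟩⟩
  · have := card_union_le W₁ W₂
    have := card_union_le W₃ W₄
    have := card_union_le (W₁ ∪ W₂) (W₃ ∪ W₄)
    omega
  · obtain ⟨c, hc, rfl⟩ := w₁ a h; exact hT (by simp [hc])
  · obtain ⟨c, hc, rfl⟩ := w₂ a h; exact hT (by simp [hc])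
  · obtain ⟨c, hc, he⟩ := w₃ x h; exact ⟨c, hT (by simp [hc]), he⟩
  · obtain ⟨c, hc, he⟩ := w₄ x h; exact ⟨c, hT (by simp [hc]), he⟩

/-- Two different lines of nonzero relative slope leave their crossing on either side. -/
theorem cross_lt {a c : ℝ × ℝ} {x₀ x : ℝ} (hne : a ≠ c) (h : lval a x₀ = lval c x₀) (hx : x ≠ x₀) :
    lval a x ≠ lval c x := by
  intro h'
  simp only [lval] at h h'
  have h1 : (a.1 - c.1) * (x - x₀) = 0 := by linarith
  rcases mul_eq_zero.1 h1 with h2 | h2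
  · exact hne (Prod.ext (by linarith) (by rw [sub_eq_zero.1 h2] at h; linarith))
  · exact hx (sub_eq_zero.1 h2)

/-- A line crossing the top or bottom line strictly inside the interval enters the trapezoid. -/
theorem no_event {τ : Trap} {S : Finset (ℝ × ℝ)} (h : App τ S) {a c : ℝ × ℝ} {x₀ : ℝ}
    (hab : τ.1.1 = some a ∨ τ.1.2 = some a) (hc : c ∈ S) (hne : a ≠ c)
    (hx₀ : InI τ x₀) : lval a x₀ ≠ lval c x₀ := by
  intro heq
  obtain ⟨hg, hconf⟩ := h
  -- an abscissa on either side of `x₀` inside the interval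
  have hI : ∃ u v : ℝ, u < x₀ ∧ x₀ < v ∧ ∀ x, u ≤ x → x ≤ v → InI τ x := by
    obtain ⟨h1, h2⟩ := hx₀
    obtain ⟨u, hu, hu'⟩ : ∃ u, u < x₀ ∧ ∀ l, τ.2.1 = some l → l < u := by
      rcases hlo : τ.2.1 with _ | l
      · exact ⟨x₀ - 1, by linarith, fun l hl => by simp at hl⟩
      · exact ⟨(l + x₀) / 2, by linarith [h1 l hlo], fun l' hl' => by
          cases hl'; linarith [h1 l hlo]⟩
    obtain ⟨v, hv, hv'⟩ : ∃ v, x₀ < v ∧ ∀ k, τ.2.2 = some k → v < k := by
      rcases hhi : τ.2.2 with _ | k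
      · exact ⟨x₀ + 1, by linarith, fun k hk => by simp at hk⟩
      · exact ⟨(k + x₀) / 2, by linarith [h2 k hhi], fun k' hk' => by
          cases hk'; linarith [h2 k hhi]⟩
    exact ⟨u, v, hu, hv, fun x a1 a2 => ⟨fun l hl => (hu' l hl).trans_le a1,
      fun k hk => a2.trans_lt (hv' k hk)⟩⟩
  obtain ⟨u, v, hu, hv, hI⟩ := hI
  have hd : ∀ x, lval c x - lval a x = (c.1 - a.1) * (x - x₀) := fun x => by
    simp only [lval] at heq ⊢; linarith
  have hsl : c.1 - a.1 ≠ 0 := by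
    intro h0
    exact cross_lt hne heq (x := x₀ + 1) (by linarith) (by
      have := hd (x₀ + 1); rw [h0, zero_mul] at this; linarith)
  -- near `x₀` the other line of the trapezoid stays away from `c`
  have key : ∀ (o : Option (ℝ × ℝ)) (sgn : ℝ), (sgn = 1 ∨ sgn = -1) →
      (∀ b, o = some b → 0 < sgn * (lval a x₀ - lval b x₀)) →
      ∃ x, u ≤ x ∧ x ≤ v ∧ sgn * (lval c x - lval a x) < 0 ∧
        ∀ b, o = some b → 0 < sgn * (lval c x - lval b x) := by
    intro o sgn hs ho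
    obtain ⟨δ, hδ, hnear⟩ : ∃ δ > 0, ∀ x, |x - x₀| < δ → ∀ b, o = some b →
        0 < sgn * (lval c x - lval b x) := by
      cases o with
      | none => exact ⟨1, one_pos, fun x _ b hb => by simp at hb⟩
      | some b =>
        have hcont : Continuous fun x => sgn * (lval c x - lval b x) :=
          continuous_const.mul ((continuous_lval c).sub (continuous_lval b))
        obtain ⟨δ, hδ, hd⟩ := Metric.mem_nhds_iff.1 ((isOpen_Ioi.preimage hcont).mem_nhds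
          (show x₀ ∈ (fun x => sgn * (lval c x - lval b x)) ⁻¹' Set.Ioi 0 by
            simpa [← heq] using ho b rfl))
        exact ⟨δ, hδ, fun x hx b' hb' => by cases hb'; exact hd (by simpa [Real.dist_eq] using hx)⟩
    set η := min (min (δ / 2) (x₀ - u)) (v - x₀)
    have hη : 0 < η := lt_min (lt_min (by linarith) (by linarith)) (by linarith)
    have e1 : η ≤ δ / 2 := (min_le_left _ _).trans (min_le_left _ _)
    have e2 : η ≤ x₀ - u := (min_le_left _ _).trans (min_le_right _ _)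
    have e3 : η ≤ v - x₀ := min_le_right _ _
    rcases lt_or_gt_of_ne (mul_ne_zero (by rcases hs with rfl | rfl <;> norm_num : sgn ≠ 0) hsl)
      with hneg | hpos
    · refine ⟨x₀ + η, by linarith, by linarith, ?_, hnear _ ?_⟩
      · rw [hd, add_sub_cancel_left, ← mul_assoc]
        exact mul_neg_of_neg_of_pos hneg hη
      · rw [add_sub_cancel_left, abs_of_pos hη]; linarith
    · refine ⟨x₀ - η, by linarith, by linarith, ?_, hnear _ ?_⟩
      · rw [hd, sub_sub_cancel_left, ← mul_assoc]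
        exact mul_neg_of_pos_of_neg hpos (by linarith)
      · rw [sub_sub_cancel_left, abs_neg, abs_of_pos hη]; linarith
  rcases hab with ha | ha
  · obtain ⟨x, xu, xv, hca, hcb⟩ := key τ.1.2 1 (Or.inl rfl) fun b hb => by
      linarith [hg.1.2 x₀ hx₀ a b ha hb]
    exact hconf c hc ⟨x, hI x xu xv, fun a' ha' => by
      rw [ha] at ha'; cases ha'; linarith, fun b hb => by linarith [hcb b hb]⟩
  · obtain ⟨x, xu, xv, hca, hcb⟩ := key τ.1.1 (-1) (Or.inr rfl) fun b hb => by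
      linarith [hg.1.2 x₀ hx₀ b a hb ha]
    exact hconf c hc ⟨x, hI x xu xv, fun a' ha' => by linarith [hcb a' ha'], fun b hb => by
      rw [ha] at hb; cases hb; linarith⟩

theorem side_eq {τ τ' : Trap} {S : Finset (ℝ × ℝ)} (h : App τ S) (h' : App τ' S) {x₀ y₀ : ℝ}
    (hx : InI τ x₀) (hx' : InI τ' x₀) (hy : Btw τ x₀ y₀) (hy' : Btw τ' x₀ y₀)
    (hu : ∀ a a', τ.1.1 = some a → τ'.1.1 = some a' → lval a x₀ = lval a' x₀ → a = a')
    (hl : ∀ a a', τ.1.2 = some a → τ'.1.2 = some a' → lval a x₀ = lval a' x₀ → a = a') :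
    τ.1 = τ'.1 := by
  refine Prod.ext ?_ ?_
  · rcases ha : τ.1.1 with _ | a <;> rcases ha' : τ'.1.1 with _ | a'
    · rfl
    · exact absurd ⟨x₀, hx, fun _ hs => by rw [ha] at hs; simp at hs,
        fun b hb => (hy.2 b hb).trans (hy'.1 a' ha')⟩ (h.2 a' (h'.1.2.1 a' ha'))
    · exact absurd ⟨x₀, hx', fun _ hs => by rw [ha'] at hs; simp at hs,
        fun b hb => (hy'.2 b hb).trans (hy.1 a ha)⟩ (h'.2 a (h.1.2.1 a ha))
    · rcases lt_trichotomy (lval a x₀) (lval a' x₀) with hlt | heq | hgt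
      · exact absurd ⟨x₀, hx', fun _ hs => by rw [ha'] at hs; cases hs; exact hlt,
          fun b hb => (hy'.2 b hb).trans (hy.1 a ha)⟩ (h'.2 a (h.1.2.1 a ha))
      · rw [hu a a' ha ha' heq]
      · exact absurd ⟨x₀, hx, fun _ hs => by rw [ha] at hs; cases hs; exact hgt,
          fun b hb => (hy.2 b hb).trans (hy'.1 a' ha')⟩ (h.2 a' (h'.1.2.1 a' ha'))
  · rcases ha : τ.1.2 with _ | a <;> rcases ha' : τ'.1.2 with _ | a'
    · rfl
    · exact absurd ⟨x₀, hx, fun b hb => (hy'.2 a' ha').trans (hy.1 b hb),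
        fun _ hs => by rw [ha] at hs; simp at hs⟩ (h.2 a' (h'.1.2.2.1 a' ha'))
    · exact absurd ⟨x₀, hx', fun b hb => (hy.2 a ha).trans (hy'.1 b hb),
        fun _ hs => by rw [ha'] at hs; simp at hs⟩ (h'.2 a (h.1.2.2.1 a ha))
    · rcases lt_trichotomy (lval a x₀) (lval a' x₀) with hlt | heq | hgt
      · exact absurd ⟨x₀, hx, fun b hb => (hy'.2 a' ha').trans (hy.1 b hb),
          fun _ hs => by rw [ha] at hs; cases hs; exact hlt⟩ (h.2 a' (h'.1.2.2.1 a' ha'))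
      · rw [hl a a' ha ha' heq]
      · exact absurd ⟨x₀, hx', fun b hb => (hy.2 a ha).trans (hy'.1 b hb),
          fun _ hs => by rw [ha'] at hs; cases hs; exact hgt⟩ (h'.2 a (h.1.2.2.1 a ha))

theorem ends_eq {τ τ' : Trap} {S : Finset (ℝ × ℝ)} (h : App τ S) (h' : App τ' S)
    (he : τ.1 = τ'.1) {x₀ : ℝ} (hx : InI τ x₀) (hx' : InI τ' x₀) : τ = τ' := by
  have hev : ∀ {x}, InI τ x → ∀ c ∈ S, ¬ EvW τ c x := fun hI c hc ⟨a, ha, hne, heq⟩ =>
    no_event h ha hc hne hI heq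
  have hev' : ∀ {x}, InI τ' x → ∀ c ∈ S, ¬ EvW τ' c x := fun hI c hc ⟨a, ha, hne, heq⟩ =>
    no_event h' ha hc hne hI heq
  have htr : ∀ {c x}, EvW τ c x ↔ EvW τ' c x := by
    intro c x; simp only [EvW, he]
  obtain ⟨h1, h2⟩ := hx
  obtain ⟨h1', h2'⟩ := hx'
  refine Prod.ext he (Prod.ext ?_ ?_)
  · have key : ∀ {σ σ' : Trap}, (∀ {x}, InI σ x → ∀ c ∈ S, ¬ EvW σ c x) → Def4 σ' S →
        (∀ {c x}, EvW σ' c x → EvW σ c x) → InI σ x₀ → (∀ l, σ'.2.1 = some l → l < x₀) →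
        ∀ l', σ'.2.1 = some l' → ∃ l, σ.2.1 = some l ∧ l' ≤ l := by
      intro σ σ' hev hd ht hI hlt l' hl'
      by_contra hcon
      push Not at hcon
      obtain ⟨c, hc, hw⟩ := hd.2.2.2.1 l' hl'
      exact hev ⟨hcon, fun k hk => (hlt l' hl').trans (hI.2 k hk)⟩ c hc (ht hw)
    have k1 := key hev h'.1 htr.2 ⟨h1, h2⟩ h1'
    have k2 := key hev' h.1 htr.1 ⟨h1', h2'⟩ h1
    rcases ha : τ.2.1 with _ | l <;> rcases ha' : τ'.2.1 with _ | l'
    · rfl
    · obtain ⟨l, hl, -⟩ := k1 l' ha'; rw [ha] at hl; simp at hl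
    · obtain ⟨l', hl, -⟩ := k2 l ha; rw [ha'] at hl; simp at hl
    · obtain ⟨_, hl, e1⟩ := k1 l' ha'; rw [ha] at hl; cases hl
      obtain ⟨_, hl', e2⟩ := k2 l ha; rw [ha'] at hl'; cases hl'
      rw [le_antisymm e2 e1]
  · have key : ∀ {σ σ' : Trap}, (∀ {x}, InI σ x → ∀ c ∈ S, ¬ EvW σ c x) → Def4 σ' S →
        (∀ {c x}, EvW σ' c x → EvW σ c x) → InI σ x₀ → (∀ l, σ'.2.2 = some l → x₀ < l) →
        ∀ l', σ'.2.2 = some l' → ∃ l, σ.2.2 = some l ∧ l ≤ l' := by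
      intro σ σ' hev hd ht hI hlt l' hl'
      by_contra hcon
      push Not at hcon
      obtain ⟨c, hc, hw⟩ := hd.2.2.2.2 l' hl'
      exact hev ⟨fun k hk => (hI.1 k hk).trans (hlt l' hl'), hcon⟩ c hc (ht hw)
    have k1 := key hev h'.1 htr.2 ⟨h1, h2⟩ h2'
    have k2 := key hev' h.1 htr.1 ⟨h1', h2'⟩ h2
    rcases ha : τ.2.2 with _ | l <;> rcases ha' : τ'.2.2 with _ | l'
    · rfl
    · obtain ⟨l, hl, -⟩ := k1 l' ha'; rw [ha] at hl; simp at hl
    · obtain ⟨l', hl, -⟩ := k2 l ha; rw [ha'] at hl; simp at hl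
    · obtain ⟨_, hl, e1⟩ := k1 l' ha'; rw [ha] at hl; cases hl
      obtain ⟨_, hl', e2⟩ := k2 l ha; rw [ha'] at hl'; cases hl'
      rw [le_antisymm e1 e2]

end Vale.Agent.P054.ST
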