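import Mathlib

/-!
Random subsets of a finite set, with every element kept independently with probability `q`,
written as weighted sums, and the thinning inequality behind the sampling bound.
-/

namespace Vale.Agent.P054.ST

open Finset

variable {α : Type*} [DecidableEq α]

/-- The probability that the random subset of `L` is `S`. -/
noncomputable def wgt (L : Finset α) (q : ℝ) (S : Finset α) : ℝ :=
  q ^ S.card * (1 - q) ^ (L.card - S.card)

omit [DecidableEq α] in
theorem wgt_nonneg {L S : Finset α} {q : ℝ} (h0 : 0 ≤ q) (h1 : q ≤ 1) : 0 ≤ wgt L q S := by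
  have : 0 ≤ 1 - q := by linarith
  unfold wgt; positivity

theorem sum_supersets {L W : Finset α} (hW : W ⊆ L) (f : Finset α → ℝ) :
    ∑ S ∈ L.powerset with W ⊆ S, f S = ∑ R ∈ (L \ W).powerset, f (W ∪ R) := by
  refine Finset.sum_nbij' (fun S => S \ W) (fun R => W ∪ R) ?_ ?_ ?_ ?_ ?_
  · intro S hS
    simp only [mem_filter, mem_powerset] at hS ⊢
    exact sdiff_subset_sdiff hS.1 subset_rfl
  · intro R hR
    simp only [mem_filter, mem_powerset] at hR ⊢
    exact ⟨union_subset hW (hR.trans sdiff_subset), subset_union_left⟩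
  · intro S hS
    simp only [mem_filter] at hS
    exact union_sdiff_of_subset hS.2
  · intro R hR
    simp only [mem_powerset] at hR
    exact union_sdiff_cancel_left (disjoint_of_subset_right hR disjoint_sdiff)
  · intro S hS
    simp only [mem_filter] at hS
    rw [union_sdiff_of_subset hS.2]

omit [DecidableEq α] in
theorem sum_wgt (L : Finset α) (q : ℝ) : ∑ S ∈ L.powerset, wgt L q S = 1 := by
  have := Finset.sum_pow_mul_eq_add_pow q (1 - q) L
  simpa [wgt] using this

theorem sum_wgt_supersets {L W : Finset α} (hW : W ⊆ L) (q : ℝ) :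
    ∑ S ∈ L.powerset with W ⊆ S, wgt L q S = q ^ W.card := by
  rw [sum_supersets hW]
  refine Eq.trans (Finset.sum_congr rfl fun R hR => ?_)
    ((Finset.mul_sum _ _ _).symm.trans
      ((congrArg (q ^ W.card * ·) (sum_wgt (L \ W) q)).trans (mul_one _)))
  simp only [wgt]
  rw [card_union_of_disjoint (disjoint_of_subset_right (mem_powerset.1 hR) disjoint_sdiff),
    card_sdiff_of_subset hW, pow_add, Nat.sub_sub]
  ring

theorem sum_wgt_mem {L : Finset α} {c : α} (hc : c ∈ L) (q : ℝ) :
    ∑ S ∈ L.powerset with c ∈ S, wgt L q S = q := by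
  simpa using sum_wgt_supersets (W := {c}) (by simpa using hc) q

theorem sum_wgt_card (L : Finset α) (q : ℝ) :
    ∑ S ∈ L.powerset, wgt L q S * S.card = q * L.card := by
  have h : ∀ S ∈ L.powerset, wgt L q S * S.card = ∑ c ∈ L, if c ∈ S then wgt L q S else 0 := by
    intro S hS
    rw [Finset.sum_ite_mem, inter_eq_right.2 (mem_powerset.1 hS), Finset.sum_const, nsmul_eq_mul,
      mul_comm]
  rw [Finset.sum_congr rfl h, Finset.sum_comm]
  simp_rw [← Finset.sum_filter]
  rw [Finset.sum_congr rfl fun c hc => sum_wgt_mem hc q, Finset.sum_const, nsmul_eq_mul, mul_comm]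

theorem sum_wgt_card_sq {L : Finset α} {q : ℝ} :
    ∑ S ∈ L.powerset, wgt L q S * (S.card : ℝ) ^ 2 ≤ q * L.card + q ^ 2 * (L.card : ℝ) ^ 2 := by
  have h : ∀ S ∈ L.powerset, wgt L q S * (S.card : ℝ) ^ 2 =
      ∑ c ∈ L, ∑ d ∈ L, if {c, d} ⊆ S then wgt L q S else 0 := by
    intro S hS
    have hS' := mem_powerset.1 hS
    simp only [insert_subset_iff, singleton_subset_iff, ite_and, Finset.sum_ite_irrel,
      Finset.sum_const_zero, Finset.sum_ite_mem, inter_eq_right.2 hS', Finset.sum_const,
      nsmul_eq_mul]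
    ring
  rw [Finset.sum_congr rfl h, Finset.sum_comm]
  have h2 : ∀ c ∈ L, ∑ S ∈ L.powerset, ∑ d ∈ L, (if {c, d} ⊆ S then wgt L q S else 0) ≤
      q + q ^ 2 * L.card := by
    intro c hc
    rw [Finset.sum_comm]
    refine le_of_eq_of_le (Finset.sum_congr rfl fun d hd => ?_)
      (le_trans (le_of_eq (Finset.add_sum_erase L (fun d => q ^ ({c, d} : Finset α).card) hc).symm) ?_)
    · rw [← Finset.sum_filter,
        sum_wgt_supersets (by simp [insert_subset_iff, hc, hd])]
    · refine add_le_add (by simp) ?_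
      rw [Finset.sum_congr rfl fun d hd => show q ^ ({c, d} : Finset α).card = q ^ 2 by
        rw [card_pair (ne_of_mem_erase hd).symm], Finset.sum_const, nsmul_eq_mul, mul_comm]
      exact mul_le_mul_of_nonneg_left (Nat.cast_le.2 card_erase_le) (by positivity)
  refine (Finset.sum_le_sum h2).trans (le_of_eq ?_)
  rw [Finset.sum_const, nsmul_eq_mul]
  ring

/-- An event given by at most four witnesses loses a factor `16` under thinning by one half. -/
theorem thin {M : Finset α} {q : ℝ} (h0 : 0 ≤ q) (h1 : q ≤ 1) (U : Finset α → Prop)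
    [DecidablePred U] (hU : ∀ S ⊆ M, U S → ∃ W ⊆ S, W.card ≤ 4 ∧ ∀ T, W ⊆ T → T ⊆ S → U T) :
    ∑ S ∈ M.powerset with U S, wgt M q S ≤ 16 * ∑ T ∈ M.powerset with U T, wgt M (q / 2) T := by
  have hexp : ∀ T ∈ M.powerset, wgt M (q / 2) T =
      ∑ S ∈ M.powerset with T ⊆ S, (q / 2) ^ S.card * (1 - q) ^ (M.card - S.card) := by
    intro T hT
    have hT' := mem_powerset.1 hT
    rw [sum_supersets hT']
    have hb := Finset.sum_pow_mul_eq_add_pow (q / 2) (1 - q) (M \ T)
    rw [show q / 2 + (1 - q) = 1 - q / 2 by ring, card_sdiff_of_subset hT'] at hb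
    rw [wgt, ← hb, Finset.mul_sum]
    refine Finset.sum_congr rfl fun R hR => ?_
    rw [card_union_of_disjoint (disjoint_of_subset_right (mem_powerset.1 hR) disjoint_sdiff),
      pow_add, Nat.sub_sub]
    ring
  rw [Finset.sum_congr rfl fun T hT => hexp T (mem_filter.1 hT).1,
    Finset.sum_comm' (t' := M.powerset) (s' := fun S => S.powerset.filter U) (by
      intro T S
      simp only [mem_filter, mem_powerset]
      exact ⟨fun h => ⟨⟨h.2.2, h.1.2⟩, h.2.1⟩, fun h => ⟨⟨h.1.1.trans h.2, h.1.2⟩, h.2, h.1.1⟩⟩),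
    Finset.mul_sum]
  have hnn : ∀ S : Finset α, 0 ≤ (q / 2) ^ S.card * (1 - q) ^ (M.card - S.card) := fun S => by
    have : 0 ≤ 1 - q := by linarith
    positivity
  refine le_trans (Finset.sum_le_sum fun S hS => ?_)
    (Finset.sum_le_sum_of_subset_of_nonneg (filter_subset U _) fun S _ _ =>
      mul_nonneg (by norm_num) (Finset.sum_nonneg fun _ _ => hnn S))
  simp only [mem_filter, mem_powerset] at hS
  obtain ⟨W, hWS, hW4, hW⟩ := hU S hS.1 hS.2
  have hsub : (S \ W).powerset.image (W ∪ ·) ⊆ S.powerset.filter U := by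
    intro T hT
    obtain ⟨R, hR, rfl⟩ := mem_image.1 hT
    have hT' : W ∪ R ⊆ S := union_subset hWS ((mem_powerset.1 hR).trans sdiff_subset)
    exact mem_filter.2 ⟨mem_powerset.2 hT', hW _ subset_union_left hT'⟩
  have hcard : 2 ^ S.card ≤ 16 * (S.powerset.filter U).card := by
    have h2 : ((S \ W).powerset.image (W ∪ ·)).card = 2 ^ (S.card - W.card) := by
      rw [card_image_of_injOn, card_powerset, card_sdiff_of_subset hWS]
      intro R hR R' hR' he
      simp only [coe_powerset, Set.mem_preimage, Set.mem_powerset_iff, coe_subset] at hR hR'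
      have := congrArg (· \ W) he
      simp only [union_sdiff_cancel_left (disjoint_of_subset_right hR disjoint_sdiff),
        union_sdiff_cancel_left (disjoint_of_subset_right hR' disjoint_sdiff)] at this
      exact this
    calc 2 ^ S.card ≤ 2 ^ (4 + (S.card - W.card)) :=
          Nat.pow_le_pow_right (by norm_num) (by omega)
      _ ≤ _ := by
          rw [pow_add]
          exact Nat.mul_le_mul (le_of_eq (by norm_num)) (h2.ge.trans (card_le_card hsub))
  rw [Finset.sum_const, nsmul_eq_mul, wgt]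
  have hc : (2 : ℝ) ^ S.card ≤ 16 * ((S.powerset.filter U).card : ℝ) := by exact_mod_cast hcard
  calc q ^ S.card * (1 - q) ^ (M.card - S.card)
      = 2 ^ S.card * ((q / 2) ^ S.card * (1 - q) ^ (M.card - S.card)) := by
        rw [← mul_assoc, ← mul_pow, mul_div_cancel₀ q two_ne_zero]
    _ ≤ _ := (mul_le_mul_of_nonneg_right hc (hnn S)).trans_eq (by ring)

/-- The sampling bound: many conflicts make an appearance unlikely, in comparison with the
appearance at half the density. -/
theorem conflict_decay {L : Finset α} {q : ℝ} (h0 : 0 < q) (h1 : q ≤ 1 / 2) (U : Finset α → Prop)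
    [DecidablePred U] (hU : ∀ S ⊆ L, U S → ∃ W ⊆ S, W.card ≤ 4 ∧ ∀ T, W ⊆ T → T ⊆ S → U T)
    (K : Finset α) (hK : K ⊆ L) :
    (K.card : ℝ) * ∑ S ∈ L.powerset with (U S ∧ Disjoint K S), wgt L q S ≤
      32 / q * ∑ S ∈ L.powerset with (U S ∧ Disjoint K S), wgt L (q / 2) S := by
  have hsplit : ∀ r : ℝ, ∑ S ∈ L.powerset with (U S ∧ Disjoint K S), wgt L r S =
      (1 - r) ^ K.card * ∑ S ∈ (L \ K).powerset with U S, wgt (L \ K) r S := by
    intro r
    rw [Finset.mul_sum]
    refine Finset.sum_congr ?_ fun S hS => ?_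
    · ext S
      simp only [mem_filter, mem_powerset, subset_sdiff, disjoint_comm (a := K)]
      tauto
    · simp only [mem_filter, mem_powerset] at hS
      have hc := card_le_card hS.1
      rw [card_sdiff_of_subset hK] at hc
      have := card_le_card hK
      rw [wgt, wgt, card_sdiff_of_subset hK,
        show L.card - S.card = K.card + (L.card - K.card - S.card) by omega, pow_add]
      ring
  rw [hsplit q, hsplit (q / 2)]
  set k : ℕ := K.card with hk
  have hA : 0 ≤ ∑ S ∈ (L \ K).powerset with U S, wgt (L \ K) q S :=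
    Finset.sum_nonneg fun S _ => wgt_nonneg h0.le (by linarith)
  have hthin := thin h0.le (by linarith : q ≤ 1) U
    (fun S hS => hU S (hS.trans sdiff_subset)) (M := L \ K)
  have hb : (k : ℝ) * (1 - q) ^ k ≤ 2 / q * (1 - q / 2) ^ k := by
    have h2 : (1 - q) ^ k * (1 + q / 2) ^ k ≤ (1 - q / 2) ^ k := by
      rw [← mul_pow]
      exact pow_le_pow_left₀ (mul_nonneg (by linarith) (by linarith)) (by nlinarith) k
    have h3 := mul_le_mul_of_nonneg_left (one_add_mul_le_pow (show -2 ≤ q / 2 by linarith) k)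
      (show (0 : ℝ) ≤ (1 - q) ^ k from pow_nonneg (by linarith) k)
    have h5 : 0 ≤ (1 - q) ^ k := pow_nonneg (by linarith) k
    rw [div_mul_eq_mul_div, le_div_iff₀ h0]
    nlinarith
  have h4 : 0 ≤ 2 / q * (1 - q / 2) ^ k := mul_nonneg (by positivity) (pow_nonneg (by linarith) k)
  calc (k : ℝ) * ((1 - q) ^ k * _) = ((k : ℝ) * (1 - q) ^ k) * _ := by ring
    _ ≤ 2 / q * (1 - q / 2) ^ k * (16 * _) := mul_le_mul hb hthin hA h4
    _ = _ := by ring

end Vale.Agent.P054.ST
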